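import Vale.Agent.Lib.P061.Exact

/-!
# P061: the optimal thinness of spanning trees of the complete graph `K_n`

For every `n ≥ 2`: `K_n` is `(n-1)`-edge-connected, some spanning tree (the Hamiltonian path) is
`((n-1)/⌊n²/4⌋)`-thin, and every `α`-thin spanning tree of `K_n` has `α ≥ (n-1)/⌊n²/4⌋`.
Here `n ^ 2 / 4` is division of natural numbers, i.e. `⌊n²/4⌋`.
-/

namespace Vale.Agent.Results.P061.CompleteGraphExact

open Vale.Agent.Lib.P061

theorem result : ∀ n : ℕ, 2 ≤ n →
    (completeGraph n).EdgeConnected (n - 1) ∧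
    (∃ T : Finset {p : Fin n × Fin n // p.1 < p.2},
      (completeGraph n).IsSpanningTree T ∧
      (completeGraph n).IsThin T (((n : ℝ) - 1) / (((n ^ 2 / 4 : ℕ) : ℝ)))) ∧
    (∀ (T : Finset {p : Fin n × Fin n // p.1 < p.2}) (α : ℝ),
      (completeGraph n).IsSpanningTree T → (completeGraph n).IsThin T α →
      ((n : ℝ) - 1) / (((n ^ 2 / 4 : ℕ) : ℝ)) ≤ α) :=
  fun n hn => ⟨completeGraph_edgeConnected n,
    ⟨pathTree n, pathTree_isSpanningTree n (by omega), pathTree_isThin n hn⟩,
    fun T α hT hthin => completeGraph_thin_lower_exact n hn T α hT hthin⟩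

end Vale.Agent.Results.P061.CompleteGraphExact
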