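import Vale.Agent.Lib.P061.Dense.Main

/-!
# P061: the strong thin tree conjecture holds for dense simple graphs

Every loopless multigraph without parallel edges (a simple graph) on `n ≥ 2` vertices all of whose
cuts have at least `k ≥ 1` edges has a spanning tree `T` with
`|δ_T(S)| ≤ (68 n² / k³) |δ_G(S)|` for every nonempty proper vertex set `S`.  Hence, for every
`ε > 0`, the same tree is `((68 / ε²) / k)`-thin whenever `k ≥ ε n`: the strong thin tree
conjecture holds, with the constant `C = 68 / ε²`, for simple graphs of linear edge connectivity.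
-/

namespace Vale.Agent.Results.P061.DenseGraphs

open Vale.Agent.Lib.P061

theorem result : ∀ (V E : Type) [Fintype V] [Fintype E] [DecidableEq V] [DecidableEq E]
    (G : Multigraph V E) (k : ℕ), 1 ≤ k → 2 ≤ Fintype.card V → G.IsSimple →
    G.EdgeConnected k →
    ∃ T : Finset E, G.IsSpanningTree T ∧
      G.IsThin T (68 * (Fintype.card V : ℝ) ^ 2 / (k : ℝ) ^ 3) ∧
      ∀ ε : ℝ, 0 < ε → ε * (Fintype.card V : ℝ) ≤ k → G.IsThin T ((68 / ε ^ 2) / k) :=
  fun _ _ _ _ _ _ G k hk hV hs hconn => dense_thin G k hk hV hs hconn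

end Vale.Agent.Results.P061.DenseGraphs
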