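import Vale.Agent.Lib.P061.Dense.Main
import Vale.Agent.Lib.P061.Exact
import Vale.Agent.Lib.P061.LowerBound

/-!
# P061: thin trees in dense simple graphs, the constant is at least 4, and the exact value for `K_n`

One theorem collecting three statements about the strong thin tree conjecture.

1. Every loopless multigraph without parallel edges (a simple graph) on `n ≥ 2` vertices all of
   whose cuts have at least `k ≥ 1` edges has a spanning tree `T` with
   `|δ_T(S)| ≤ (68 n² / k³) |δ_G(S)|` for every nonempty proper vertex set `S`; the same tree is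
   `((68 / ε²) / k)`-thin whenever `k ≥ ε n`.
2. For every real `C < 4` it is false that for every `k ≥ 1` every `k`-edge-connected loopless
   multigraph on at least two vertices has a `(C/k)`-thin spanning tree.
3. For every `n ≥ 2`: `K_n` is `(n-1)`-edge-connected, some spanning tree is
   `((n-1)/⌊n²/4⌋)`-thin, and every `α`-thin spanning tree of `K_n` has `α ≥ (n-1)/⌊n²/4⌋`.
   Here `n ^ 2 / 4` is division of natural numbers, i.e. `⌊n²/4⌋`.
-/

namespace Vale.Agent.Results.P061.DenseUpperAndLowerFour

open Vale.Agent.Lib.P061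

theorem result :
    (∀ (V E : Type) [Fintype V] [Fintype E] [DecidableEq V] [DecidableEq E]
      (G : Multigraph V E) (k : ℕ), 1 ≤ k → 2 ≤ Fintype.card V → G.IsSimple →
      G.EdgeConnected k →
      ∃ T : Finset E, G.IsSpanningTree T ∧
        G.IsThin T (68 * (Fintype.card V : ℝ) ^ 2 / (k : ℝ) ^ 3) ∧
        ∀ ε : ℝ, 0 < ε → ε * (Fintype.card V : ℝ) ≤ k → G.IsThin T ((68 / ε ^ 2) / k)) ∧
    (∀ C : ℝ, C < 4 →
      ¬ (∀ k : ℕ, 1 ≤ k → ∀ (V E : Type) [Fintype V] [Fintype E] [DecidableEq V] [DecidableEq E]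
          (G : Multigraph V E), 2 ≤ Fintype.card V → G.EdgeConnected k →
          ∃ T : Finset E, G.IsSpanningTree T ∧ G.IsThin T (C / k))) ∧
    (∀ n : ℕ, 2 ≤ n →
      (completeGraph n).EdgeConnected (n - 1) ∧
      (∃ T : Finset {p : Fin n × Fin n // p.1 < p.2},
        (completeGraph n).IsSpanningTree T ∧
        (completeGraph n).IsThin T (((n : ℝ) - 1) / (((n ^ 2 / 4 : ℕ) : ℝ)))) ∧
      (∀ (T : Finset {p : Fin n × Fin n // p.1 < p.2}) (α : ℝ),
        (completeGraph n).IsSpanningTree T → (completeGraph n).IsThin T α →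
        ((n : ℝ) - 1) / (((n ^ 2 / 4 : ℕ) : ℝ)) ≤ α)) :=
  ⟨fun _ _ _ _ _ _ G k hk hV hs hconn => dense_thin G k hk hV hs hconn,
    not_strong_thin_of_lt_four,
    fun n hn => ⟨completeGraph_edgeConnected n,
      ⟨pathTree n, pathTree_isSpanningTree n (by omega), pathTree_isThin n hn⟩,
      fun T α hT hthin => completeGraph_thin_lower_exact n hn T α hT hthin⟩⟩

end Vale.Agent.Results.P061.DenseUpperAndLowerFour
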