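import Vale.Agent.Lib.P061.LowerBound

/-!
# P061: the constant in the strong thin tree conjecture must be at least 4

For every real `C < 4` the following statement is false: for every `k ≥ 1`, every
`k`-edge-connected loopless multigraph on at least two vertices has a `(C/k)`-thin spanning tree.
The witness is the complete graph `K_n` (with `k = n - 1`): a spanning tree is bipartite, so one
colour class `S` is crossed by all `n - 1` tree edges, while `|δ(S)| = |S| (n - |S|) ≤ n²/4`.
-/

namespace Vale.Agent.Results.P061.LowerBoundFour

open Vale.Agent.Lib.P061

theorem result : ∀ C : ℝ, C < 4 →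
    ¬ (∀ k : ℕ, 1 ≤ k → ∀ (V E : Type) [Fintype V] [Fintype E] [DecidableEq V] [DecidableEq E]
        (G : Multigraph V E), 2 ≤ Fintype.card V → G.EdgeConnected k →
        ∃ T : Finset E, G.IsSpanningTree T ∧ G.IsThin T (C / k)) :=
  not_strong_thin_of_lt_four

end Vale.Agent.Results.P061.LowerBoundFour
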